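import Mathlib
import Crest.Prelude.Def_FoulkesHowe

/-! Row 187 (S0287): basic tools.  Functional trick, permanents, powers of linear forms. -/

set_option autoImplicit false

namespace Crest.Agent.R187

open MvPolynomial Crest.AlgebraR.FoulkesHowe

/-- functional trick, univariate -/
theorem poly_coeff_mem {S : Type*} [CommRing S] [Algebra ℂ S] (V : Submodule ℂ S)
    (p : Polynomial S) (h : ∀ t : ℂ, p.eval (algebraMap ℂ S t) ∈ V) (m : ℕ) :
    p.coeff m ∈ V := by
  by_contra hm
  obtain ⟨φ, h1, h2⟩ := Submodule.exists_le_ker_of_notMem hm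
  apply h1
  let q : Polynomial ℂ := ∑ i ∈ Finset.range (p.natDegree + 1), Polynomial.monomial i (φ (p.coeff i))
  have hq : q = 0 := by
    apply Polynomial.funext
    intro t
    have h3 := h2 (h t)
    rw [LinearMap.mem_ker, Polynomial.eval_eq_sum_range, map_sum] at h3
    rw [Polynomial.eval_zero, Polynomial.eval_finset_sum, ← h3]
    apply Finset.sum_congr rfl
    intro i _
    rw [Polynomial.eval_monomial, ← map_pow, ← Algebra.commutes, ← Algebra.smul_def, map_smul,
      smul_eq_mul, mul_comm]
  have h4 : q.coeff m = φ (p.coeff m) := by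
    simp only [q, Polynomial.finset_sum_coeff, Polynomial.coeff_monomial]
    rw [Finset.sum_ite_eq' (Finset.range (p.natDegree + 1)) m]
    split_ifs with h5
    · rfl
    · rw [Polynomial.coeff_eq_zero_of_natDegree_lt, map_zero]
      simpa using h5
  rw [← h4, hq, Polynomial.coeff_zero]

/-- functional trick, multivariate -/
theorem mv_coeff_mem {σ S : Type*} [CommRing S] [Algebra ℂ S] (V : Submodule ℂ S)
    (p : MvPolynomial σ S) (h : ∀ t : σ → ℂ, eval (fun i => algebraMap ℂ S (t i)) p ∈ V)
    (m : σ →₀ ℕ) : coeff m p ∈ V := by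
  classical
  by_contra hm
  obtain ⟨φ, h1, h2⟩ := Submodule.exists_le_ker_of_notMem hm
  apply h1
  let q : MvPolynomial σ ℂ := ∑ i ∈ p.support, monomial i (φ (coeff i p))
  have hq : q = 0 := by
    apply MvPolynomial.funext
    intro t
    have h3 := h2 (h t)
    rw [LinearMap.mem_ker, MvPolynomial.eval_eq, map_sum] at h3
    rw [map_zero, map_sum, ← h3]
    apply Finset.sum_congr rfl
    intro i _
    rw [eval_monomial, Finsupp.prod]
    have : ∏ j ∈ i.support, (algebraMap ℂ S (t j)) ^ i j
        = algebraMap ℂ S (∏ j ∈ i.support, t j ^ i j) := by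
      rw [map_prod]; simp only [map_pow]
    rw [this, ← Algebra.commutes, ← Algebra.smul_def, map_smul, smul_eq_mul, mul_comm]
  have h4 : coeff m q = φ (coeff m p) := by
    simp only [q, coeff_sum, coeff_monomial]
    rw [Finset.sum_ite_eq' p.support m]
    split_ifs with h5
    · rfl
    · rw [notMem_support_iff.mp h5, map_zero]
  rw [← h4, hq, coeff_zero]

/-- the permanent lemma -/
theorem perm_mem {S : Type*} [CommRing S] [Algebra ℂ S] (V : Submodule ℂ S) {a : ℕ}
    (M : Fin a → Fin a → S) (h : ∀ t : Fin a → ℂ, ∏ i, ∑ j, t j • M i j ∈ V) :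
    ∑ σ : Equiv.Perm (Fin a), ∏ i, M i (σ i) ∈ V := by
  classical
  let p : MvPolynomial (Fin a) S := ∏ i, ∑ j, X j * C (M i j)
  have hp : ∀ t : Fin a → ℂ, eval (fun i => algebraMap ℂ S (t i)) p ∈ V := by
    intro t
    have : eval (fun i => algebraMap ℂ S (t i)) p = ∏ i, ∑ j, t j • M i j := by
      simp only [p, map_prod, map_sum, map_mul, eval_X, eval_C, Algebra.smul_def]
    rw [this]; exact h t
  have key := mv_coeff_mem V p hp (∑ j, Finsupp.single j 1)
  convert key using 1
  have hexp : p = ∑ φ : Fin a → Fin a, monomial (∑ i, Finsupp.single (φ i) 1)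
      (∏ i, M i (φ i)) := by
    simp only [p]
    rw [Finset.prod_univ_sum, Fintype.piFinset_univ]
    apply Finset.sum_congr rfl
    intro φ _
    rw [Finset.prod_mul_distrib]
    rw [← map_prod]
    have : ∏ i : Fin a, (X (φ i) : MvPolynomial (Fin a) S)
        = monomial (∑ i, Finsupp.single (φ i) 1) 1 := by
      rw [monomial_sum_one]
      rfl
    rw [this, mul_comm, C_mul_monomial, mul_one]
  rw [hexp, coeff_sum]
  simp only [coeff_monomial]
  rw [← Finset.sum_filter]
  symm
  have hbij : ∀ φ : Fin a → Fin a, (∑ i, Finsupp.single (φ i) 1 : Fin a →₀ ℕ)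
      = ∑ j, Finsupp.single j 1 ↔ Function.Bijective φ := by
    intro φ
    constructor
    · intro hφ
      rw [← Finite.surjective_iff_bijective]
      intro j
      have h1 := DFunLike.congr_fun hφ j
      simp only [Finsupp.finset_sum_apply, Finsupp.single_apply] at h1
      by_contra hj
      push Not at hj
      rw [Finset.sum_eq_zero (fun i _ => if_neg (hj i))] at h1
      simp at h1
    · intro hφ
      exact (Equiv.ofBijective φ hφ).sum_comp (fun j => (Finsupp.single j 1 : Fin a →₀ ℕ))
  refine Finset.sum_bij' (fun φ hφ => Equiv.ofBijective φ ((hbij φ).mp (Finset.mem_filter.mp hφ).2))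
    (fun σ _ => σ) ?_ ?_ ?_ ?_ ?_
  · intro φ hφ; exact Finset.mem_univ _
  · intro σ _
    rw [Finset.mem_filter]
    exact ⟨Finset.mem_univ _, (hbij σ).mpr σ.bijective⟩
  · intro φ hφ; rfl
  · intro σ _; ext; rfl
  · intro φ hφ; rfl

end Crest.Agent.R187
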