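import Crest.Agent.R187.Basic

/-! Row 187 (S0287): block norms, invariants, symmetrization. -/

set_option autoImplicit false

namespace Crest.Agent.R187

open MvPolynomial Crest.AlgebraR.FoulkesHowe

/-- one-block ring -/
abbrev P (n : ℕ) : Type := MvPolynomial (Fin n) ℂ
/-- `a`-block ring -/
abbrev SA (a n : ℕ) : Type := MvPolynomial (Var a n) ℂ

/-- forms of degree d -/
noncomputable abbrev H (n d : ℕ) : Submodule ℂ (P n) := homogeneousSubmodule (Fin n) ℂ d

/-- insertion into block i -/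
noncomputable def blk {a n : ℕ} (i : Fin a) : P n →ₐ[ℂ] SA a n := rename (fun k => (i, k))

/-- the block norm -/
noncomputable def Nm (a : ℕ) {n : ℕ} (F : P n) : SA a n := ∏ i, blk i F

theorem Nm_mul {a n : ℕ} (F G : P n) : Nm a (F * G) = Nm a F * Nm a G := by
  simp only [Nm, map_mul, Finset.prod_mul_distrib]

theorem Nm_one {a n : ℕ} : Nm a (1 : P n) = 1 := by
  simp only [Nm, map_one, Finset.prod_const_one]

theorem Nm_pow {a n : ℕ} (F : P n) (k : ℕ) : Nm a (F ^ k) = Nm a F ^ k := by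
  simp only [Nm, map_pow, Finset.prod_pow]

theorem Nm_prod {a n : ℕ} {ι : Type*} (s : Finset ι) (F : ι → P n) :
    Nm a (∏ i ∈ s, F i) = ∏ i ∈ s, Nm a (F i) := by
  simp only [Nm, map_prod]
  rw [Finset.prod_comm]

/-- shift embedding of a blocks in a+1 blocks (as blocks 1..a) -/
noncomputable def shift (a n : ℕ) : SA a n →ₐ[ℂ] SA (a + 1) n :=
  rename (fun v => (Fin.succ v.1, v.2))

theorem shift_blk {a n : ℕ} (i : Fin a) (F : P n) :
    shift a n (blk i F) = blk (Fin.succ i) F := by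
  simp only [shift, blk, rename_rename]; rfl

theorem shift_Nm {a n : ℕ} (F : P n) : shift a n (Nm a F) = ∏ i : Fin a, blk (Fin.succ i) F := by
  simp only [Nm, map_prod, shift_blk]

theorem Nm_succ {a n : ℕ} (F : P n) :
    Nm (a + 1) F = shift a n (Nm a F) * blk 0 F := by
  rw [shift_Nm, Nm, Fin.prod_univ_succ, mul_comm]

/-- action of a permutation -/
noncomputable def act {a n : ℕ} (σ : Equiv.Perm (Fin a)) : SA a n →ₐ[ℂ] SA a n :=
  rename (blockPerm σ)

theorem act_blk {a n : ℕ} (σ : Equiv.Perm (Fin a)) (i : Fin a) (F : P n) :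
    act σ (blk i F) = blk (σ i) F := by
  simp only [act, blk, rename_rename]; rfl

theorem act_Nm {a n : ℕ} (σ : Equiv.Perm (Fin a)) (F : P n) : act σ (Nm a F) = Nm a F := by
  simp only [Nm, map_prod, act_blk]
  exact Equiv.prod_comp σ (fun i => blk i F)

/-- the symmetric subalgebra -/
noncomputable def Inv (a n : ℕ) : Subalgebra ℂ (SA a n) :=
  ⨅ σ : Equiv.Perm (Fin a), AlgHom.equalizer (act σ) (AlgHom.id ℂ _)

theorem mem_Inv {a n : ℕ} (x : SA a n) : x ∈ Inv a n ↔ ∀ σ, act σ x = x := by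
  simp only [Inv, Algebra.mem_iInf, AlgHom.mem_equalizer, AlgHom.id_apply]

theorem Nm_mem_Inv {a n : ℕ} (F : P n) : Nm a F ∈ Inv a n := by
  rw [mem_Inv]; exact fun σ => act_Nm σ F

/-- symmetrization -/
noncomputable def Sy (a n : ℕ) : SA a n →ₗ[ℂ] SA a n :=
  ∑ σ : Equiv.Perm (Fin a), (act σ).toLinearMap

theorem Sy_apply {a n : ℕ} (x : SA a n) : Sy a n x = ∑ σ : Equiv.Perm (Fin a), act σ x := by
  simp only [Sy, LinearMap.sum_apply, AlgHom.toLinearMap_apply]

theorem Sy_of_Inv {a n : ℕ} {x : SA a n} (hx : x ∈ Inv a n) :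
    Sy a n x = (Nat.factorial a : ℂ) • x := by
  rw [mem_Inv] at hx
  rw [Sy_apply]
  simp only [hx, Finset.sum_const, Finset.card_univ, Fintype.card_perm, Fintype.card_fin]
  rw [Nat.cast_smul_eq_nsmul]

theorem Sy_mul {a n : ℕ} {u : SA a n} (hu : u ∈ Inv a n) (x : SA a n) :
    Sy a n (u * x) = u * Sy a n x := by
  rw [mem_Inv] at hu
  simp only [Sy_apply, map_mul, hu, Finset.mul_sum]

/-- Symmetrization trick. -/
theorem sy_trick {a n : ℕ} {U K W : Submodule ℂ (SA a n)}
    (hU : U ≤ Subalgebra.toSubmodule (Inv a n)) (hK : ∀ x ∈ K, Sy a n x ∈ W)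
    {z : SA a n} (hz : z ∈ U * K) (hzI : z ∈ Inv a n) : z ∈ U * W := by
  have h1 : Sy a n z ∈ U * W := by
    clear hzI
    induction hz using Submodule.mul_induction_on' with
    | mem_mul_mem u hu x hx =>
      rw [Sy_mul (hU hu)]
      exact Submodule.mul_mem_mul hu (hK x hx)
    | add x _ y _ hx hy => rw [map_add]; exact Submodule.add_mem _ hx hy
  rw [Sy_of_Inv hzI] at h1
  have h2 : (Nat.factorial a : ℂ) ≠ 0 := by exact_mod_cast Nat.factorial_ne_zero a
  have h3 := Submodule.smul_mem (U * W) ((Nat.factorial a : ℂ)⁻¹) h1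
  rwa [smul_smul, inv_mul_cancel₀ h2, one_smul] at h3

/-- span of the norms of forms of degree b -/
noncomputable def R (a n b : ℕ) : Submodule ℂ (SA a n) :=
  Submodule.span ℂ ((fun F => Nm a F) '' (H n b : Set (P n)))

/-- span of the k-th powers of norms of linear forms -/
noncomputable def D (a n k : ℕ) : Submodule ℂ (SA a n) :=
  Submodule.span ℂ ((fun F => Nm a F ^ k) '' (H n 1 : Set (P n)))

/-- block zero forms -/
noncomputable def Q (a n d : ℕ) : Submodule ℂ (SA (a + 1) n) :=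
  (H n d).map (blk (0 : Fin (a + 1))).toLinearMap

theorem Nm_mem_R {a n b : ℕ} {F : P n} (hF : F ∈ H n b) : Nm a F ∈ R a n b :=
  Submodule.subset_span ⟨F, hF, rfl⟩

theorem Nm_pow_mem_D {a n k : ℕ} {F : P n} (hF : F ∈ H n 1) : Nm a F ^ k ∈ D a n k :=
  Submodule.subset_span ⟨F, hF, rfl⟩

theorem Nm_mem_D {a n : ℕ} {F : P n} (hF : F ∈ H n 1) : Nm a F ∈ D a n 1 := by
  have := Nm_pow_mem_D (a := a) (k := 1) hF
  rwa [pow_one] at this

theorem blk_mem_Q {a n d : ℕ} {F : P n} (hF : F ∈ H n d) :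
    blk (0 : Fin (a + 1)) F ∈ Q a n d := ⟨F, hF, rfl⟩

theorem D_le_Inv {a n k : ℕ} : D a n k ≤ Subalgebra.toSubmodule (Inv a n) := by
  rw [D, Submodule.span_le]
  rintro _ ⟨F, hF, rfl⟩
  exact Subalgebra.pow_mem _ (Nm_mem_Inv F) k

theorem pow_le_Inv {a n : ℕ} {U : Submodule ℂ (SA a n)}
    (hU : U ≤ Subalgebra.toSubmodule (Inv a n)) (m : ℕ) :
    U ^ m ≤ Subalgebra.toSubmodule (Inv a n) := by
  induction m with
  | zero =>
    rw [pow_zero, Submodule.one_le]
    exact Subalgebra.one_mem _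
  | succ m ih =>
    rw [pow_succ, Submodule.mul_le]
    intro x hx y hy
    exact Subalgebra.mul_mem _ (ih hx) (hU hy)

/-- forms of degree d are spanned by powers of linear forms -/
theorem H_le_span_pow (n d : ℕ) :
    H n d ≤ Submodule.span ℂ ((fun w => w ^ d) '' (H n 1 : Set (P n))) := by
  rw [H, ← homogeneousSubmodule_one_pow, Submodule.pow_eq_span_pow_set, Submodule.span_le]
  intro x hx
  rw [Set.mem_pow] at hx
  obtain ⟨f, rfl⟩ := hx
  rw [List.prod_ofFn]
  have key := perm_mem (Submodule.span ℂ ((fun w : P n => w ^ d) '' (H n 1 : Set (P n))))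
    (fun (_ j : Fin d) => (f j : P n)) (by
      intro t
      rw [Finset.prod_const, Finset.card_univ, Fintype.card_fin]
      apply Submodule.subset_span
      refine ⟨∑ j, t j • (f j : P n), ?_, rfl⟩
      exact Submodule.sum_mem _ (fun j _ => Submodule.smul_mem _ _ (f j).2))
  have h1 : ∑ σ : Equiv.Perm (Fin d), ∏ i, (f (σ i) : P n)
      = (Nat.factorial d : ℂ) • ∏ i, (f i : P n) := by
    rw [Finset.sum_congr rfl (fun σ _ => Equiv.prod_comp σ (fun i => (f i : P n)))]
    simp only [Finset.sum_const, Finset.card_univ, Fintype.card_perm, Fintype.card_fin]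
    rw [Nat.cast_smul_eq_nsmul]
  rw [h1] at key
  have h2 : (Nat.factorial d : ℂ) ≠ 0 := by exact_mod_cast Nat.factorial_ne_zero d
  have h3 := Submodule.smul_mem _ ((Nat.factorial d : ℂ)⁻¹) key
  rwa [smul_smul, inv_mul_cancel₀ h2, one_smul] at h3

/-- Symmetrization of `G` in blocks 1..a and `F` in block 0. -/
theorem Sy_blk_mem {a n : ℕ} (W : Submodule ℂ (SA (a + 1) n)) (F G : P n)
    (h : ∀ s t : ℂ, Nm (a + 1) (s • G + t • F) ∈ W) :
    Sy (a + 1) n (shift a n (Nm a G) * blk 0 F) ∈ W := by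
  let Fs : Fin (a + 1) → P n := Fin.cons F (fun _ => G)
  have h1 : shift a n (Nm a G) * blk 0 F = ∏ i, blk i (Fs i) := by
    rw [shift_Nm, Fin.prod_univ_succ, mul_comm]; rfl
  have key := perm_mem W (fun i j => blk i (Fs j)) (by
    intro t
    have h2 : ∏ i, ∑ j, t j • blk i (Fs j)
        = Nm (a + 1) ((∑ j : Fin a, t (Fin.succ j)) • G + t 0 • F) := by
      rw [Nm]
      apply Finset.prod_congr rfl
      intro i _
      rw [Fin.sum_univ_succ, map_add, map_smul, map_smul, Finset.sum_smul]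
      exact add_comm _ _
    rw [h2]; exact h _ _)
  rw [h1, Sy_apply]
  simp only [map_prod, act_blk]
  convert key using 1
  rw [← Equiv.sum_comp (Equiv.inv (Equiv.Perm (Fin (a + 1))))]
  apply Finset.sum_congr rfl
  intro σ _
  rw [← Equiv.prod_comp σ]
  apply Finset.prod_congr rfl
  intro i _
  simp

end Crest.Agent.R187
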