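import Crest.Agent.R187.Main

/-! Row 187 (S0287): block-symmetric polynomials are spanned by norms; conclusion. -/

set_option autoImplicit false

namespace Crest.Agent.R187

open MvPolynomial Crest.AlgebraR.FoulkesHowe

theorem mem_blockSym {a n b : ℕ} (f : MvPolynomial (Var a n) ℂ) :
    f ∈ blockSym a n b ↔ (∀ i : Fin a, IsWeightedHomogeneous (blockWeight (n := n) i) f b) ∧
      ∀ σ : Equiv.Perm (Fin a), act σ f = f := by
  simp only [blockSym, Submodule.mem_inf, Submodule.mem_iInf, mem_weightedHomogeneousSubmodule,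
    LinearMap.mem_eqLocus, AlgHom.toLinearMap_apply, LinearMap.id_apply, act]

theorem Sy_prod_blk_mem {a n b : ℕ} (Fs : Fin a → P n) (hF : ∀ i, Fs i ∈ H n b) :
    Sy a n (∏ i, blk i (Fs i)) ∈ R a n b := by
  have key := perm_mem (R a n b) (fun i j => blk i (Fs j)) (by
    intro t
    have h2 : ∏ i, ∑ j, t j • blk i (Fs j) = Nm a (∑ j, t j • Fs j) := by
      rw [Nm]
      apply Finset.prod_congr rfl
      intro i _
      rw [map_sum]
      simp only [map_smul]
    rw [h2]
    exact Nm_mem_R (Submodule.sum_mem _ (fun j _ => Submodule.smul_mem _ _ (hF j))))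
  rw [Sy_apply]
  simp only [map_prod, act_blk]
  convert key using 1
  rw [← Equiv.sum_comp (Equiv.inv (Equiv.Perm (Fin a)))]
  apply Finset.sum_congr rfl
  intro σ _
  rw [← Equiv.prod_comp σ]
  apply Finset.prod_congr rfl
  intro i _
  simp

/-- part of an exponent in block i -/
noncomputable def part {a n : ℕ} (m : Var a n →₀ ℕ) (i : Fin a) : Fin n →₀ ℕ :=
  Finsupp.equivFunOnFinite.symm (fun k => m (i, k))

theorem part_apply {a n : ℕ} (m : Var a n →₀ ℕ) (i : Fin a) (k : Fin n) :
    part m i k = m (i, k) := rfl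

theorem sum_part {a n : ℕ} (m : Var a n →₀ ℕ) :
    ∑ i : Fin a, (part m i).mapDomain (fun k => (i, k)) = m := by
  ext ⟨j, k⟩
  rw [Finsupp.finset_sum_apply, Finset.sum_eq_single j]
  · exact Finsupp.mapDomain_apply (fun x y h => (Prod.mk.inj h).2) _ _
  · intro i _ hij
    apply Finsupp.mapDomain_notin_range
    rintro ⟨k', hk'⟩
    exact hij (Prod.mk.inj hk').1
  · intro h; exact absurd (Finset.mem_univ _) h

theorem monomial_eq_prod {a n : ℕ} (m : Var a n →₀ ℕ) :
    (monomial m 1 : SA a n) = ∏ i, blk i (monomial (part m i) 1) := by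
  conv_lhs => rw [← sum_part m]
  rw [monomial_sum_one]
  apply Finset.prod_congr rfl
  intro i _
  rw [blk, rename_monomial]

theorem part_hom {a n b : ℕ} (m : Var a n →₀ ℕ) (i : Fin a)
    (h : Finsupp.weight (blockWeight (n := n) i) m = b) :
    (monomial (part m i) 1 : P n) ∈ H n b := by
  rw [H, mem_homogeneousSubmodule]
  apply isHomogeneous_monomial
  rw [Finsupp.weight_apply, Finsupp.sum_fintype _ _ (by simp), Fintype.sum_prod_type] at h
  rw [Finsupp.degree_eq_sum, ← h, Finset.sum_eq_single i]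
  · apply Finset.sum_congr rfl
    intro k _
    simp [part_apply, blockWeight]
  · intro j _ hj
    apply Finset.sum_eq_zero
    intro k _
    simp [blockWeight, hj]
  · intro h; exact absurd (Finset.mem_univ _) h

theorem blockSym_le_R {a n b : ℕ} : blockSym a n b ≤ R a n b := by
  intro f hf
  rw [mem_blockSym] at hf
  obtain ⟨h1, h2⟩ := hf
  have h3 : Sy a n f ∈ R a n b := by
    rw [f.as_sum, map_sum]
    apply Submodule.sum_mem
    intro m hm
    have hm' := mem_support_iff.mp hm
    have h4 : (monomial m (coeff m f) : SA a n) = coeff m f • monomial m 1 := by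
      rw [smul_monomial, smul_eq_mul, mul_one]
    rw [h4, map_smul, monomial_eq_prod]
    apply Submodule.smul_mem
    apply Sy_prod_blk_mem
    intro i
    exact part_hom m i (h1 i hm')
  have h5 : f ∈ Inv a n := (mem_Inv f).mpr h2
  rw [Sy_of_Inv h5] at h3
  have h6 : (Nat.factorial a : ℂ) ≠ 0 := by exact_mod_cast Nat.factorial_ne_zero a
  have h7 := Submodule.smul_mem (R a n b) ((Nat.factorial a : ℂ)⁻¹) h3
  rwa [smul_smul, inv_mul_cancel₀ h6, one_smul] at h7

theorem blk_wh {a n : ℕ} (i j : Fin a) {F : P n} (hF : F ∈ H n 1) :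
    IsWeightedHomogeneous (blockWeight (n := n) i) (blk j F) (if j = i then 1 else 0) := by
  have hle : H n 1 ≤ (weightedHomogeneousSubmodule ℂ (blockWeight (a := a) (n := n) i)
      (if j = i then 1 else 0)).comap (blk j).toLinearMap := by
    rw [H, homogeneousSubmodule_one_eq_span_X, Submodule.span_le]
    rintro _ ⟨k, rfl⟩
    have h0 : blk (a := a) j (X k : P n) = X (j, k) := by rw [blk, rename_X]
    show IsWeightedHomogeneous (blockWeight (n := n) i) (blk j (X k : P n)) (if j = i then 1 else 0)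
    rw [h0]
    exact isWeightedHomogeneous_X ℂ (blockWeight (n := n) i) (j, k)
  exact hle hF

theorem D_le_blockSym {a n : ℕ} : D a n 1 ≤ blockSym a n 1 := by
  rw [D, Submodule.span_le]
  rintro _ ⟨F, hF, rfl⟩
  show Nm a F ^ 1 ∈ blockSym a n 1
  rw [pow_one, mem_blockSym]
  refine ⟨fun i => ?_, fun σ => act_Nm σ F⟩
  have h := IsWeightedHomogeneous.prod (w := blockWeight (n := n) i) Finset.univ
    (fun j : Fin a => blk j F) (fun j => if j = i then 1 else 0) (fun j _ => blk_wh i j hF)
  rw [Finset.sum_ite_eq' Finset.univ i, if_pos (Finset.mem_univ i)] at h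
  exact h

theorem blockSym_le_pow {a n b : ℕ} (hb : (a - 1) ^ 2 ≤ b) :
    blockSym a n b ≤ blockSym a n 1 ^ b :=
  (blockSym_le_R.trans (main_span n a b hb)).trans (pow_le_pow_left' D_le_blockSym b)

theorem pow_le_adjoin {a n b : ℕ} :
    blockSym a n 1 ^ b ≤ Subalgebra.toSubmodule
      (Algebra.adjoin ℂ (blockSym a n 1 : Set (MvPolynomial (Var a n) ℂ))) := by
  induction b with
  | zero => rw [pow_zero, Submodule.one_le]; exact Subalgebra.one_mem _
  | succ b ih =>
    rw [pow_succ, Submodule.mul_le]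
    intro x hx y hy
    exact Subalgebra.mul_mem _ (ih hx) (Algebra.subset_adjoin hy)

end Crest.Agent.R187
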