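import Crest.Agent.R187.Defs

/-! Row 187 (S0287): the key elimination lemma. -/

set_option autoImplicit false

namespace Crest.Agent.R187

open MvPolynomial Crest.AlgebraR.FoulkesHowe

theorem Q_mul {a n d e : ℕ} {x y : SA (a + 1) n} (hx : x ∈ Q a n d) (hy : y ∈ Q a n e) :
    x * y ∈ Q a n (d + e) := by
  obtain ⟨F, hF, rfl⟩ := hx
  obtain ⟨G, hG, rfl⟩ := hy
  refine ⟨F * G, ?_, by simp⟩
  exact IsHomogeneous.mul hF hG

theorem VQ_mul {a n d e : ℕ} {V : Submodule ℂ (SA (a + 1) n)} {x y : SA (a + 1) n}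
    (hx : x ∈ V * Q a n d) (hy : y ∈ Q a n e) :
    x * y ∈ V * Q a n (d + e) := by
  have h1 : x * y ∈ V * Q a n d * Q a n e := Submodule.mul_mem_mul hx hy
  rw [mul_assoc] at h1
  have h2 : Q a n d * Q a n e ≤ Q a n (d + e) := by
    rw [Submodule.mul_le]
    intro u hu v hv
    exact Q_mul hu hv
  exact (mul_le_mul' le_rfl h2) h1

/-- one step of elimination -/
theorem elim_step {a n N : ℕ} (V : Submodule ℂ (SA (a + 1) n)) (x y : SA (a + 1) n)
    (hx : x ∈ Q a n 1) (hy : y ∈ Q a n 1) (k : ℕ) (q : Polynomial (SA (a + 1) n))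
    (hdeg : ∀ i, N < i + (k + 1) → q.coeff i = 0)
    (hp : ∀ i r, i + k + r = N →
      ((Polynomial.C x + Polynomial.X * Polynomial.C y) * q).coeff i * y ^ (k + r) ∈ V * Q a n r)
    (r : ℕ) : ∀ i, i + (k + 1) + r = N → q.coeff i * y ^ (k + 1 + r) ∈ V * Q a n r := by
  have hc : ∀ i, ((Polynomial.C x + Polynomial.X * Polynomial.C y) * q).coeff (i + 1)
      = x * q.coeff (i + 1) + y * q.coeff i := by
    intro i
    rw [add_mul, Polynomial.coeff_add, Polynomial.coeff_C_mul, mul_assoc, Polynomial.coeff_X_mul,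
      Polynomial.coeff_C_mul]
  induction r with
  | zero =>
    intro i hi
    have h1 := hp (i + 1) 0 (by omega)
    rw [hc, hdeg (i + 1) (by omega), mul_zero, zero_add] at h1
    have : q.coeff i * y ^ (k + 1 + 0) = y * q.coeff i * y ^ (k + 0) := by ring
    rw [this]; exact h1
  | succ r ih =>
    intro i hi
    have h1 := hp (i + 1) (r + 1) (by omega)
    rw [hc] at h1
    have h2 := ih (i + 1) (by omega)
    have h3 := VQ_mul h2 hx
    have h4 : q.coeff i * y ^ (k + 1 + (r + 1))
        = (x * q.coeff (i + 1) + y * q.coeff i) * y ^ (k + (r + 1))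
          - q.coeff (i + 1) * y ^ (k + 1 + r) * x := by ring
    rw [h4]
    exact Submodule.sub_mem _ h1 h3

theorem elim {a n N : ℕ} (V : Submodule ℂ (SA (a + 1) n)) (x y : SA (a + 1) n)
    (hx : x ∈ Q a n 1) (hy : y ∈ Q a n 1) (k : ℕ) : ∀ (q : Polynomial (SA (a + 1) n)),
    (∀ i, N < i + k → q.coeff i = 0) →
    (∀ i, ((Polynomial.C x + Polynomial.X * Polynomial.C y) ^ k * q).coeff i ∈ V) →
    ∀ i r, i + k + r = N → q.coeff i * y ^ (k + r) ∈ V * Q a n r := by
  induction k with
  | zero =>
    intro q hdeg hp i r hi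
    have h1 := hp i
    rw [pow_zero, one_mul] at h1
    refine Submodule.mul_mem_mul h1 ?_
    obtain ⟨w, hw, rfl⟩ := hy
    refine ⟨w ^ (0 + r), ?_, by simp⟩
    have := IsHomogeneous.pow hw (0 + r)
    simpa using this
  | succ k ih =>
    intro q hdeg hp i r hi
    refine elim_step V x y hx hy k q hdeg ?_ r i hi
    apply ih
    · intro i hi
      rcases i with _ | i
      · rw [add_mul, Polynomial.coeff_add, Polynomial.coeff_C_mul, mul_assoc, Polynomial.coeff_X_mul_zero,
          hdeg 0 (by omega)]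
        simp
      · rw [add_mul, Polynomial.coeff_add, Polynomial.coeff_C_mul, mul_assoc, Polynomial.coeff_X_mul,
          Polynomial.coeff_C_mul, hdeg i (by omega), hdeg (i + 1) (by omega)]
        simp
    · intro i
      have := hp i
      rw [pow_succ, mul_assoc] at this
      exact this

/-- KEY lemma -/
theorem key {a n k b : ℕ} (hb : (a + 1) * k ≤ b) {v w : P n} (hv : v ∈ H n 1) (hw : w ∈ H n 1) :
    shift a n (Nm a v) ^ k * blk 0 w ^ b ∈ D (a + 1) n k * Q a n (b - k) := by
  let E : Polynomial (SA (a + 1) n) :=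
    ∏ i : Fin a, (Polynomial.C (blk i.succ v) + Polynomial.X * Polynomial.C (blk i.succ w))
  have hEdeg : E.natDegree ≤ a := by
    refine (Polynomial.natDegree_prod_le _ _).trans ?_
    refine (Finset.sum_le_card_nsmul _ _ 1 ?_).trans ?_
    · intro i _
      compute_degree
    · simp
  have hEk : (E ^ k).natDegree ≤ a * k := by
    refine Polynomial.natDegree_pow_le.trans ?_
    rw [mul_comm]; exact Nat.mul_le_mul_right k hEdeg
  have hkb : k ≤ b := le_trans (Nat.le_mul_of_pos_left k (Nat.succ_pos a)) hb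
  have h := elim (N := b) (D (a + 1) n k) (blk 0 v) (blk 0 w) (blk_mem_Q hv) (blk_mem_Q hw) k (E ^ k)
    (by
      intro i hi
      apply Polynomial.coeff_eq_zero_of_natDegree_lt
      have : a * k + k ≤ b := by rw [← Nat.succ_mul]; exact hb
      omega)
    (by
      intro i
      apply poly_coeff_mem
      intro t
      have h1 : ((Polynomial.C (blk 0 v) + Polynomial.X * Polynomial.C (blk 0 w)) ^ k
          * E ^ k).eval (algebraMap ℂ (SA (a + 1) n) t) = Nm (a + 1) (v + t • w) ^ k := by
        rw [Polynomial.eval_mul, Polynomial.eval_pow, Polynomial.eval_pow, ← mul_pow]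
        congr 1
        have h0 : ∀ i : Fin (a + 1), blk i (v + t • w)
            = blk i v + algebraMap ℂ (SA (a + 1) n) t * blk i w := by
          intro i
          rw [map_add, map_smul, Algebra.smul_def]
        rw [Nm, Fin.prod_univ_succ]
        simp only [E, Polynomial.eval_prod, Polynomial.eval_add, Polynomial.eval_mul,
          Polynomial.eval_C, Polynomial.eval_X, h0]
      rw [h1]
      exact Nm_pow_mem_D (Submodule.add_mem _ hv (Submodule.smul_mem _ _ hw)))
    0 (b - k) (by omega)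
  have h2 : (E ^ k).coeff 0 = shift a n (Nm a v) ^ k := by
    rw [Polynomial.coeff_zero_eq_eval_zero, Polynomial.eval_pow, shift_Nm]
    simp only [E, Polynomial.eval_prod, Polynomial.eval_add, Polynomial.eval_mul,
          Polynomial.eval_C, Polynomial.eval_X, zero_mul, add_zero]
  rw [h2] at h
  have h3 : k + (b - k) = b := by omega
  rw [h3] at h
  exact h

/-- KEY lemma, submodule form -/
theorem key_sub {a n k b : ℕ} (hb : (a + 1) * k ≤ b) :
    (D a n k).map (shift a n).toLinearMap * Q a n b ≤ D (a + 1) n k * Q a n (b - k) := by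
  rw [D, Submodule.map_span, Q]
  have h1 : (H n b).map (blk (0 : Fin (a + 1))).toLinearMap
      ≤ (Submodule.span ℂ ((fun w => w ^ b) '' (H n 1 : Set (P n)))).map
        (blk (0 : Fin (a + 1))).toLinearMap := Submodule.map_mono (H_le_span_pow n b)
  refine (mul_le_mul' le_rfl h1).trans ?_
  rw [Submodule.map_span, Submodule.span_mul_span, Submodule.span_le]
  rintro _ ⟨_, ⟨_, ⟨v, hv, rfl⟩, rfl⟩, _, ⟨_, ⟨w, hw, rfl⟩, rfl⟩, rfl⟩
  have := key hb hv hw
  simpa using this

/-- (A') -/
theorem aprime {a n k : ℕ} (hk : a ≤ k) (m : ℕ) :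
    ((D a n 1) ^ m).map (shift a n).toLinearMap * Q a n (m + k)
      ≤ (D (a + 1) n 1) ^ m * Q a n k := by
  induction m with
  | zero =>
    rw [pow_zero, pow_zero, Submodule.map_one, one_mul, one_mul, zero_add]
  | succ m ih =>
    rw [pow_succ, Submodule.map_mul, mul_assoc]
    have h1 := key_sub (a := a) (n := n) (k := 1) (b := m + 1 + k) (by omega)
    have h2 : m + 1 + k - 1 = m + k := by omega
    rw [h2] at h1
    refine (mul_le_mul' le_rfl h1).trans ?_
    rw [mul_left_comm, pow_succ', mul_assoc]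
    exact mul_le_mul' le_rfl ih

/-- symmetrization of shift(R) * Q lies in R -/
theorem sy_RQ {a n b : ℕ} (x : SA (a + 1) n)
    (hx : x ∈ (R a n b).map (shift a n).toLinearMap * Q a n b) : Sy (a + 1) n x ∈ R (a + 1) n b := by
  induction hx using Submodule.mul_induction_on' with
  | mem_mul_mem u hu y hy =>
    obtain ⟨F, hF, rfl⟩ := hy
    obtain ⟨z, hz, rfl⟩ := hu
    rw [R] at hz
    induction hz using Submodule.span_induction with
    | mem z hz =>
      obtain ⟨G, hG, rfl⟩ := hz
      apply Sy_blk_mem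
      intro s t
      exact Nm_mem_R (Submodule.add_mem _ (Submodule.smul_mem _ _ hG) (Submodule.smul_mem _ _ hF))
    | zero => simp
    | add x y _ _ hx hy =>
      rw [map_add, add_mul, map_add]; exact Submodule.add_mem _ hx hy
    | smul c x _ hx =>
      rw [map_smul, smul_mul_assoc, map_smul]; exact Submodule.smul_mem _ _ hx
  | add x _ y _ hx hy => rw [map_add]; exact Submodule.add_mem _ hx hy

theorem R_le_Inv {a n b : ℕ} : R a n b ≤ Subalgebra.toSubmodule (Inv a n) := by
  rw [R, Submodule.span_le]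
  rintro _ ⟨F, hF, rfl⟩
  exact Nm_mem_Inv F

/-- (B) -/
theorem stepB (n k : ℕ) : ∀ (a b : ℕ), a * k ≤ b → R a n b ≤ D a n k * R a n (b - k) := by
  intro a
  induction a with
  | zero =>
    intro b _
    rw [R, Submodule.span_le]
    rintro _ ⟨F, hF, rfl⟩
    have h1 : Nm 0 F = Nm 0 (0 : P n) ^ k * Nm 0 (0 : P n) := by simp [Nm]
    show Nm 0 F ∈ _
    rw [h1]
    exact Submodule.mul_mem_mul (Nm_pow_mem_D (Submodule.zero_mem _)) (Nm_mem_R (Submodule.zero_mem _))
  | succ a ih =>
    intro b hb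
    rw [R, Submodule.span_le]
    rintro _ ⟨F, hF, rfl⟩
    have hak : a * k ≤ b := le_trans (Nat.mul_le_mul_right k (Nat.le_succ a)) hb
    have h1 : Nm a F ∈ D a n k * R a n (b - k) := ih b hak (Nm_mem_R hF)
    have h2 : Nm (a + 1) F ∈ (D a n k * R a n (b - k)).map (shift a n).toLinearMap * Q a n b := by
      rw [Nm_succ]
      exact Submodule.mul_mem_mul ⟨_, h1, rfl⟩ (blk_mem_Q hF)
    rw [Submodule.map_mul, mul_right_comm] at h2
    have h3 : Nm (a + 1) F ∈ D (a + 1) n k *
        ((R a n (b - k)).map (shift a n).toLinearMap * Q a n (b - k)) := by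
      rw [mul_comm ((R a n (b - k)).map (shift a n).toLinearMap), ← mul_assoc]
      exact (mul_le_mul' (key_sub hb) le_rfl) h2
    exact sy_trick D_le_Inv (fun x hx => sy_RQ x hx) h3 (Nm_mem_Inv F)

end Crest.Agent.R187
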