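import Crest.Agent.R187.Key

/-! Row 187 (S0287): root-of-unity step and the main induction. -/

set_option autoImplicit false

namespace Crest.Agent.R187

open MvPolynomial Crest.AlgebraR.FoulkesHowe

theorem prod_mem_pow {S ι : Type*} [CommRing S] [Algebra ℂ S] (V : Submodule ℂ S)
    (s : Finset ι) (f : ι → S) (hf : ∀ i ∈ s, f i ∈ V) : ∏ i ∈ s, f i ∈ V ^ s.card := by
  classical
  induction s using Finset.induction_on with
  | empty => simp [Submodule.one_le.mp le_rfl]
  | insert i s hi ih =>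
    rw [Finset.prod_insert hi, Finset.card_insert_of_notMem hi, pow_succ']
    exact Submodule.mul_mem_mul (hf i (Finset.mem_insert_self i s))
      (ih (fun j hj => hf j (Finset.mem_insert_of_mem hj)))

/-- norms of binomials -/
theorem Nm_binom {a n k : ℕ} (hk : 0 < k) {v w : P n} (hv : v ∈ H n 1) (hw : w ∈ H n 1) :
    Nm a (v ^ k - w ^ k) ∈ D a n 1 ^ k := by
  have hζ := Complex.isPrimitiveRoot_exp k hk.ne'
  have h1 : v ^ k - w ^ k = ∏ ζ ∈ Polynomial.nthRootsFinset k (1 : ℂ), (v - ζ • w) := by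
    apply MvPolynomial.funext
    intro x
    rw [map_sub, map_pow, map_pow, map_prod]
    rw [IsPrimitiveRoot.pow_sub_pow_eq_prod_sub_mul _ _ hk hζ]
    apply Finset.prod_congr rfl
    intro ζ _
    rw [map_sub, smul_eval]
  have h2 : (Polynomial.nthRootsFinset k (1 : ℂ)).card = k := hζ.card_nthRootsFinset
  rw [h1, Nm_prod]
  have h3 := prod_mem_pow (D a n 1) (Polynomial.nthRootsFinset k (1 : ℂ))
    (fun ζ => Nm a (v - ζ • w)) (fun ζ _ => Nm_mem_D (Submodule.sub_mem _ hv (Submodule.smul_mem _ _ hw)))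
  rwa [h2] at h3

/-- norms of general binomials -/
theorem Nm_binom' {a n k : ℕ} {v w : P n} (hv : v ∈ H n 1) (hw : w ∈ H n 1) (s t : ℂ) :
    Nm a (s • v ^ k + t • w ^ k) ∈ D a n 1 ^ k := by
  rcases Nat.eq_zero_or_pos k with rfl | hk
  · have h1 : s • v ^ 0 + t • w ^ 0 = algebraMap ℂ (P n) (s + t) := by
      rw [pow_zero, pow_zero, ← add_smul, Algebra.algebraMap_eq_smul_one]
    rw [h1, pow_zero, Nm]
    simp only [AlgHom.commutes]
    rw [Finset.prod_const, ← map_pow]
    exact Submodule.algebraMap_mem _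
  · obtain ⟨s', hs'⟩ := IsAlgClosed.exists_pow_nat_eq s hk
    obtain ⟨t', ht'⟩ := IsAlgClosed.exists_pow_nat_eq (-t) hk
    have h1 : s • v ^ k + t • w ^ k = (s' • v) ^ k - (t' • w) ^ k := by
      rw [smul_pow, smul_pow, hs', ht', neg_smul, sub_neg_eq_add]
    rw [h1]
    exact Nm_binom hk (Submodule.smul_mem _ _ hv) (Submodule.smul_mem _ _ hw)

/-- (C) -/
theorem sy_DQ {a n k : ℕ} (x : SA (a + 1) n)
    (hx : x ∈ (D a n k).map (shift a n).toLinearMap * Q a n k) :
    Sy (a + 1) n x ∈ D (a + 1) n 1 ^ k := by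
  have hle : (D a n k).map (shift a n).toLinearMap * Q a n k ≤
      (D (a + 1) n 1 ^ k).comap (Sy (a + 1) n) := by
    rw [D, Submodule.map_span, Q]
    have h1 : (H n k).map (blk (0 : Fin (a + 1))).toLinearMap
        ≤ (Submodule.span ℂ ((fun w => w ^ k) '' (H n 1 : Set (P n)))).map
          (blk (0 : Fin (a + 1))).toLinearMap := Submodule.map_mono (H_le_span_pow n k)
    refine (mul_le_mul' le_rfl h1).trans ?_
    rw [Submodule.map_span, Submodule.span_mul_span, Submodule.span_le]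
    rintro _ ⟨_, ⟨_, ⟨v, hv, rfl⟩, rfl⟩, _, ⟨_, ⟨w, hw, rfl⟩, rfl⟩, rfl⟩
    have h2 := Sy_blk_mem (a := a) (D (a + 1) n 1 ^ k) (w ^ k) (v ^ k)
      (fun s t => Nm_binom' hv hw s t)
    rw [Nm_pow] at h2
    exact h2
  exact hle hx

/-- the main theorem on spans of norms -/
theorem main_span (n : ℕ) : ∀ (a b : ℕ), (a - 1) ^ 2 ≤ b → R a n b ≤ D a n 1 ^ b := by
  intro a
  induction a with
  | zero =>
    intro b _
    rw [R, Submodule.span_le]
    rintro _ ⟨F, hF, rfl⟩
    have h1 : Nm 0 F = ∏ i ∈ Finset.range b, Nm 0 (0 : P n) := by simp [Nm]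
    show Nm 0 F ∈ _
    rw [h1]
    have h2 := prod_mem_pow (D 0 n 1) (Finset.range b) (fun _ => Nm 0 (0 : P n))
      (fun _ _ => Nm_mem_D (Submodule.zero_mem _))
    rwa [Finset.card_range] at h2
  | succ a ih =>
    intro b hb
    rw [Nat.add_sub_cancel] at hb
    rw [R, Submodule.span_le]
    rintro _ ⟨F, hF, rfl⟩
    have hab : a * a ≤ b := by rw [← sq]; exact hb
    have hab' : a ≤ b := le_trans (Nat.le_mul_self a) hab
    have h1 : Nm a F ∈ D a n a * R a n (b - a) := stepB n a a b hab (Nm_mem_R hF)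
    have h2 : (a - 1) ^ 2 ≤ b - a := by
      rcases a with _ | a
      · simp
      · apply Nat.le_sub_of_add_le
        rw [Nat.add_sub_cancel]
        nlinarith
    have h3 : Nm a F ∈ D a n a * D a n 1 ^ (b - a) := (mul_le_mul' le_rfl (ih (b - a) h2)) h1
    have h4 : Nm (a + 1) F ∈ (D a n a * D a n 1 ^ (b - a)).map (shift a n).toLinearMap
        * Q a n b := by
      rw [Nm_succ]
      exact Submodule.mul_mem_mul ⟨_, h3, rfl⟩ (blk_mem_Q hF)
    have h5 := aprime (n := n) (le_refl a) (b - a)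
    have h6 : b - a + a = b := by omega
    rw [h6] at h5
    rw [Submodule.map_mul, mul_assoc] at h4
    have h7 : Nm (a + 1) F ∈ D (a + 1) n 1 ^ (b - a) *
        ((D a n a).map (shift a n).toLinearMap * Q a n a) := by
      rw [mul_left_comm]
      exact (mul_le_mul' le_rfl h5) h4
    have h8 := sy_trick (pow_le_Inv D_le_Inv (b - a)) (fun x hx => sy_DQ x hx) h7 (Nm_mem_Inv F)
    rw [← pow_add, h6] at h8
    exact h8

end Crest.Agent.R187
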